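import Vale.Agent.P262.Main

/-!
# P262: the Euclidean Steinitz constant `S₂(d)` is at most `C √(d (1 + log d))`

The bound holds for zero-sum families of every length.
-/

namespace Vale.Agent.Results.P262.SteinitzLog

/-- The largest norm of a partial sum of the family `v` taken in the order `π`: the maximum over
`0 ≤ k ≤ N` of the norm of the sum of the first `k` vectors `v (π 0), …, v (π (k - 1))`. -/
noncomputable def maxPartial {d N : ℕ} (v : Fin N → EuclideanSpace ℝ (Fin d))
    (π : Equiv.Perm (Fin N)) : ℝ :=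
  ⨆ k : Fin (N + 1), ‖∑ i ∈ Finset.univ.filter (fun i : Fin N => (i : ℕ) < (k : ℕ)), v (π i)‖

/-- `β(v₁, …, v_N)`: the minimum of `maxPartial v π` over all orders `π`. -/
noncomputable def beta {d N : ℕ} (v : Fin N → EuclideanSpace ℝ (Fin d)) : ℝ :=
  ⨅ π : Equiv.Perm (Fin N), maxPartial v π

/-- The Euclidean Steinitz constant `S₂(d)`: the supremum (in the extended reals) of
`β(v₁, …, v_N)` over all finite zero-sum families of every length in the Euclidean unit ball. -/
noncomputable def steinitzConstant (d : ℕ) : EReal :=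
  ⨆ (N : ℕ) (v : Fin N → EuclideanSpace ℝ (Fin d))
    (_ : (∀ i, ‖v i‖ ≤ 1) ∧ ∑ i, v i = 0), (beta v : EReal)

/-- There is an absolute constant `C` with `S₂(d) ≤ C √(d (1 + log d))` for all `d ≥ 1`. -/
theorem result : ∃ C : ℝ, ∀ d : ℕ, 1 ≤ d →
    steinitzConstant d ≤ ((C * Real.sqrt (d * (1 + Real.log d)) : ℝ) : EReal) := by
  obtain ⟨C, hC⟩ := _root_.P262.steinitz
  refine ⟨C, fun d hd => ?_⟩
  refine iSup_le fun N => iSup_le fun v => iSup_le fun hv => ?_
  obtain ⟨π, hπ⟩ := hC d hd N v hv.1 hv.2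
  rw [EReal.coe_le_coe_iff]
  refine (ciInf_le (Set.finite_range _).bddBelow π).trans ?_
  exact ciSup_le fun k => hπ k (Nat.lt_succ_iff.1 k.2)

end Vale.Agent.Results.P262.SteinitzLog
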